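import Mathlib

/-! The Parisi functional of the Ising perceptron with potential `log U`. -/

open MeasureTheory ProbabilityTheory Real

namespace Vale.Agent.P157.Parisi

/-- `nestG r m d Y y`: `X_0 (y)` where `X_r = Y` and
`X_(p-1) (y) = (𝔼 X_p (y + √(d p) z) ^ (m p)) ^ (1 / m p)`, `z` standard Gaussian. -/
noncomputable def nestG : (r : ℕ) → (Fin r → ℝ) → (Fin r → ℝ) → (ℝ → ℝ) → ℝ → ℝ
  | 0, _, _, Y, y => Y y
  | r + 1, m, d, Y, y =>
      (∫ z, nestG r (Fin.tail m) (Fin.tail d) Y (y + √(d 0) * z) ^ m 0 ∂gaussianReal 0 1) ^ (1 / m 0)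

/-- expectation of `F` at the last level under the laws tilted by `X_p ^ (m p)`, started at `y` -/
noncomputable def tiltG : (r : ℕ) → (Fin r → ℝ) → (Fin r → ℝ) → (ℝ → ℝ) → (ℝ → ℝ) → ℝ → ℝ
  | 0, _, _, _, F, y => F y
  | r + 1, m, d, Y, F, y =>
      (∫ z, nestG r (Fin.tail m) (Fin.tail d) Y (y + √(d 0) * z) ^ m 0 *
          tiltG r (Fin.tail m) (Fin.tail d) Y F (y + √(d 0) * z) ∂gaussianReal 0 1) /
        ∫ z, nestG r (Fin.tail m) (Fin.tail d) Y (y + √(d 0) * z) ^ m 0 ∂gaussianReal 0 1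

/-- tilted mean, started at `y`, of the square of the conditional mean of `F` given the first `l`
levels -/
noncomputable def sqG : (r : ℕ) → (Fin r → ℝ) → (Fin r → ℝ) → (ℝ → ℝ) → (ℝ → ℝ) → Fin (r + 1) →
    ℝ → ℝ
  | 0, _, _, _, F, _, y => F y ^ 2
  | r + 1, m, d, Y, F, l, y =>
      Fin.cases (tiltG (r + 1) m d Y F y ^ 2)
        (fun l =>
          (∫ z, nestG r (Fin.tail m) (Fin.tail d) Y (y + √(d 0) * z) ^ m 0 *
              sqG r (Fin.tail m) (Fin.tail d) Y F l (y + √(d 0) * z) ∂gaussianReal 0 1) /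
            ∫ z, nestG r (Fin.tail m) (Fin.tail d) Y (y + √(d 0) * z) ^ m 0 ∂gaussianReal 0 1) l

variable {r : ℕ}

/-- increments of the overlaps -/
def incr (q : Fin (r + 1) → ℝ) (p : Fin r) : ℝ := q p.succ - q p.castSucc

/-- `V` smoothed by an independent centred Gaussian of variance `v` -/
noncomputable def smooth (V : ℝ → ℝ) (v y : ℝ) : ℝ := ∫ z, V (y + √v * z) ∂gaussianReal 0 1

/-- `𝔼 log X_0 (√q₀ z)` for the pattern: the top level is `U` smoothed by variance `1 - q_r` -/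
noncomputable def patternTerm (U : ℝ → ℝ) (m : Fin r → ℝ) (q : Fin (r + 1) → ℝ) : ℝ :=
  ∫ z, log (nestG r m (incr q) (smooth U (1 - q (Fin.last r))) (√(q 0) * z)) ∂gaussianReal 0 1

/-- `Γ_l`: the mean square of the conditional mean at level `l` of the derivative of the log potential -/
noncomputable def gam (U : ℝ → ℝ) (m : Fin r → ℝ) (q : Fin (r + 1) → ℝ) (l : Fin (r + 1)) : ℝ :=
  ∫ z, sqG r m (incr q) (smooth U (1 - q (Fin.last r)))
      (fun y => smooth (deriv U) (1 - q (Fin.last r)) y / smooth U (1 - q (Fin.last r)) y)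
      l (√(q 0) * z) ∂gaussianReal 0 1

/-- `𝔼 log` of the nested means of `cosh` in a field with covariances `s_0 ≤ … ≤ s_r` -/
noncomputable def spinTerm (m : Fin r → ℝ) (s : Fin (r + 1) → ℝ) : ℝ :=
  ∫ z, log (nestG r m (incr s) Real.cosh (√(s 0) * z)) ∂gaussianReal 0 1

/-- `m_0 = 0, m_1, …, m_r, m_(r+1) = 1` -/
def mext (m : Fin r → ℝ) (l : ℕ) : ℝ :=
  if l = 0 then 0 else if h : l - 1 < r then m ⟨l - 1, h⟩ else 1

/-- the Parisi functional at depth `r`, exponents `m`, overlaps `q` -/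
noncomputable def parisiValue (U : ℝ → ℝ) (α : ℝ) (r : ℕ) (m : Fin r → ℝ) (q : Fin (r + 1) → ℝ) :
    ℝ :=
  α * patternTerm U m q + spinTerm m (fun l => α * gam U m q l) -
    α / 2 * (gam U m q (Fin.last r) +
      ∑ l : Fin (r + 1), (mext m l - mext m (l + 1)) * (gam U m q l * q l))

/-- the values of the Parisi functional at all depths -/
def parisiValues (U : ℝ → ℝ) (α : ℝ) : Set ℝ :=
  {v | ∃ (r : ℕ) (m : Fin r → ℝ) (q : Fin (r + 1) → ℝ),
    StrictMono m ∧ (∀ i, m i ∈ Set.Ioo (0 : ℝ) 1) ∧ Monotone q ∧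
      (∀ l, q l ∈ Set.Icc (0 : ℝ) 1) ∧ v = parisiValue U α r m q}

end Vale.Agent.P157.Parisi
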