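import Vale.Agent.P157.Parisi.Formula

/-! The Parisi functional of the Ising perceptron for a bounded Borel potential: the overlaps stay below `1`
and the derivative falls on the smoothed weight. -/

open MeasureTheory ProbabilityTheory Real

namespace Vale.Agent.P157.Parisi

variable {r : ℕ}

/-- `Γ_l` with `F = (log (smooth U (1 - q_r)))'` -/
noncomputable def gamB (U : ℝ → ℝ) (m : Fin r → ℝ) (q : Fin (r + 1) → ℝ) (l : Fin (r + 1)) : ℝ :=
  ∫ z, sqG r m (incr q) (smooth U (1 - q (Fin.last r)))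
      (fun y => deriv (smooth U (1 - q (Fin.last r))) y / smooth U (1 - q (Fin.last r)) y)
      l (√(q 0) * z) ∂gaussianReal 0 1

/-- the Parisi functional of a bounded Borel weight -/
noncomputable def parisiValueB (U : ℝ → ℝ) (α : ℝ) (r : ℕ) (m : Fin r → ℝ) (q : Fin (r + 1) → ℝ) : ℝ :=
  α * patternTerm U m q + spinTerm m (fun l => α * gamB U m q l) -
    α / 2 * (gamB U m q (Fin.last r) +
      ∑ l : Fin (r + 1), (mext m l - mext m (l + 1)) * (gamB U m q l * q l))

/-- the values of the Parisi functional of a bounded Borel weight -/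
def parisiValuesB (U : ℝ → ℝ) (α : ℝ) : Set ℝ :=
  {v | ∃ (r : ℕ) (m : Fin r → ℝ) (q : Fin (r + 1) → ℝ),
    StrictMono m ∧ (∀ i, m i ∈ Set.Ioo (0 : ℝ) 1) ∧ Monotone q ∧
      (∀ l, q l ∈ Set.Ico (0 : ℝ) 1) ∧ v = parisiValueB U α r m q}

end Vale.Agent.P157.Parisi
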